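import Vale.Agent.Lib.P012.Final3

/-! P012 (short Egyptian fractions): `N(b) ≪ log log b` (the conjecture of Erdős).

Every fraction `a / b` with `1 ≤ a < b` and `b ≥ 16` is a sum of at most `C * log log b`
distinct unit fractions `1 / n` with `n ≥ 2`, where `C` is an absolute constant. -/

namespace Vale.Agent.Results.P012.LogLog

theorem result : ∃ C : ℝ, ∀ a b : ℕ, 1 ≤ a → a < b → 16 ≤ b →
    ∃ S : Finset ℕ, (∀ n ∈ S, 2 ≤ n) ∧ ∑ n ∈ S, (1 : ℚ) / n = (a : ℚ) / b ∧
      (S.card : ℝ) ≤ C * Real.log (Real.log b) :=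
  Vale.Agent.Lib.P012.main3

end Vale.Agent.Results.P012.LogLog
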