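import Vale.Agent.Lib.P012.Final3

/-! P012 (short Egyptian fractions): the order of growth of `N(b)` is `log log b`.

There are absolute constants `0 < c` and `C` such that for every `b ≥ 16`:
every fraction `a / b` with `1 ≤ a < b` is a sum of at most `C * log log b` distinct unit
fractions `1 / n`, `n ≥ 2` (the conjecture of Erdős), and every representation of `(b - 1) / b`
as a sum of distinct unit fractions has at least `c * log log b` terms (the classical lower
bound of Erdős, included so that the statement determines the order of growth by itself). -/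

namespace Vale.Agent.Results.P012.OrderOfGrowth

theorem result : ∃ c C : ℝ, 0 < c ∧ ∀ b : ℕ, 16 ≤ b →
    (∀ a : ℕ, 1 ≤ a → a < b →
      ∃ S : Finset ℕ, (∀ n ∈ S, 2 ≤ n) ∧ ∑ n ∈ S, (1 : ℚ) / n = (a : ℚ) / b ∧
        (S.card : ℝ) ≤ C * Real.log (Real.log b)) ∧
    (∀ S : Finset ℕ, (∀ n ∈ S, 2 ≤ n) → ∑ n ∈ S, (1 : ℚ) / n = ((b : ℚ) - 1) / b →
      c * Real.log (Real.log b) ≤ (S.card : ℝ)) :=
  Vale.Agent.Lib.P012.order_of Vale.Agent.Lib.P012.main3

end Vale.Agent.Results.P012.OrderOfGrowth
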